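import Crest.Agent.X212.Crt72.Lf
import Crest.Agent.X212.Idg99.Chr
import Crest.Agent.X212.Eqv71.Grp

/-!
# Row 212, IX-APS (helper75): the index formulas with end terms from the leaves
-/

set_option autoImplicit false
set_option linter.unusedSectionVars false
noncomputable section
open scoped Manifold ContDiff Topology
open MeasureTheory Set Function Filter

namespace Crest.Agent.X212.Aps75
open An M Cyf70 Mod61 Nd18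
open Crt72 (zB MixStmt)

variable {κ lam : Type} [Fintype κ] [Fintype lam] {Y : Mf 3} [CompactSpace Y.M]
  {D : YD Y.I Y.M κ lam} {N : ND Y.M lam} {Z Z₁ Z₃ Z₄ : Mf 4} {k : ℕ} {X : XD κ lam} {δ : ℝ}
  {f : Bool}

section en
variable {B : Base Z.M (Option κ) lam} {G : Geo Z.I Z.M (Option κ) lam} {e : En B G}

theorem ht_mono {s t : ℝ} (h : s ≤ t) : e.ht t ⊆ e.ht s := fun _ hx => h.trans_lt hx

theorem st_mono {c β w ζ s t} (h : e.St c β w ζ s) (hs : s ≤ t) : e.St c β w ζ t :=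
  have k := prod_mono (subset_refl (univ : Set e.X.Y.M)) (ht_mono (e := e) hs)
  ⟨h.adm, (ht_mono hs).trans h.sub, ⟨h.eq.m.su.mono k, fun x j => h.eq.m.uu x (k j),
    fun x j => h.eq.m.uu' x (k j), fun x j => h.eq.m.J x (k j), fun x j => h.eq.m.ρ x (k j),
    fun x j => h.eq.m.j x (k j)⟩, fun x j => h.eq.W x (k j), fun x j => h.eq.Φ x (k j), h.eq.z⟩

theorem K_eq {K K' : Nk X.D B G} {o o'} (h : (⟨X, K, o⟩ : En B G) = ⟨X, K', o'⟩) : K = K' := by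
  cases h; rfl

theorem sd_K {K K' : Nk X.D B G} {o o₁ o₂ c β} (h : (⟨X, K, o₁⟩ : En B G) = ⟨X, K', o₂⟩)
    (k : (En.mk X K o).Sd c β) : (En.mk X K' o).Sd c β := K_eq h ▸ k

end en

/-- a common height -/
theorem exists_ht (b : BG κ lam Z) (o : Bool) (c) (β : X.C) : ∃ s, ∀ a K, b.E a = ⟨X, K, o⟩ →
    (En.mk X K o).Sd c β → ∃ w ζ, (En.mk X K o).St c β w ζ s := by
  have : ∀ a, ∃ s, ∀ K, b.E a = ⟨X, K, o⟩ → (En.mk X K o).Sd c β →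
      ∃ w ζ, (En.mk X K o).St c β w ζ s := fun a => by
    by_cases h : ∃ K, b.E a = ⟨X, K, o⟩ ∧ (En.mk X K o).Sd c β
    · obtain ⟨K, e, w, ζ, s, h⟩ := h
      refine ⟨s, fun K' e' _ => ?_⟩
      obtain rfl := K_eq (e.symm.trans e')
      exact ⟨w, ζ, h⟩
    · exact ⟨0, fun K e k => (h ⟨K, e, k⟩).elim⟩
  choose s hs using this
  obtain ⟨t, ht⟩ := (finite_range s).bddAbove
  exact ⟨t, fun a K e h => (hs a K e h).imp fun w => .imp fun ζ h => st_mono h (ht ⟨a, rfl⟩)⟩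

/-- gluing along long necks -/
theorem glue (hG : GlcStmt κ lam) {b₃ : BG κ lam Z₃} {b₄ : BG κ lam Z₄} {c₃ c₄} (β : X.C)
    (a₃ : Cfg.Adm c₃ b₃.B b₃.G) (a₄ : Cfg.Adm c₄ b₄.B b₄.G) : ∃ s, ∀ (Z₁ : Mf 4) (b₁ : BG κ lam Z₁)
    (g : GC X b₁ b₃ b₄), s ≤ g.s₃ → s ≤ g.s₄ → g.Sp ∅ ∅ ∅ false →
    (∃ c₀, Cfg.Adm (r := 0) c₀ b₁.B b₁.G) → g.E₃.Sd c₃ β → g.E₄.Sd c₄ β → ∃ c₁, g.Cf c₁ c₃ c₄ β := by
  obtain ⟨s, hs⟩ := exists_ht b₃ true c₃ β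
  obtain ⟨t, ht⟩ := exists_ht b₄ false c₄ β
  refine ⟨max s t + 1, fun Z₁ b₁ g h3 h4 h0 ⟨c₀, hc⟩ k3 k4 => ?_⟩
  obtain ⟨w, ζ, e⟩ := hs _ _ g.e₃ k3
  obtain ⟨w', ζ', e'⟩ := ht _ _ g.e₄ k4
  exact hG X _ _ _ b₁ b₃ b₄ g c₀ c₃ c₄ β w ζ w' ζ' h0 hc a₃ a₄
    (st_mono e (by linarith [le_max_left s t])) (st_mono e' (by linarith [le_max_right s t]))

/-- the defect of the index is additive -/
theorem cut (L : IxL κ lam k) {b₁ : BG κ lam Z₁} {b₃ : BG κ lam Z₃} {b₄ : BG κ lam Z₄}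
    {g : GC X b₁ b₃ b₄} {O₁ O₃ O₄ c₁ c₃ c₄ β β₃ β₄ d₁ d₂ d₃ d₄} (hs : g.Sp O₁ O₃ O₄ f)
    (hc : g.Cf c₁ c₃ c₄ β) (h₃ : b₃.Std c₃ β₃) (h₄ : b₄.Std c₄ β₄) (i₁ : b₁.Ix O₁ c₁ k δ d₁)
    (i₂ : X.bg.Ix (spO f univ) (cy β) k δ d₂) (i₃ : b₃.Ix O₃ c₃ k δ d₃) (i₄ : b₄.Ix O₄ c₄ k δ d₄) :
    d₁ - b₁.top O₁ c₁ + d₂ = d₃ - b₃.top O₃ c₃ + (d₄ - b₄.top O₄ c₄) := by
  obtain ⟨h1, h2, h3⟩ := L.top.2.1 X _ _ _ b₁ b₃ b₄ g O₁ O₃ O₄ f hs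
  obtain ⟨h4, h5⟩ := h3 c₁ c₃ c₄ β β₃ β₄ hc h₃ h₄
  have : (d₁ + d₂ : ℝ) = d₃ + d₄ := by
    exact_mod_cast L.cut X _ _ _ b₁ b₃ b₄ g O₁ O₃ O₄ f c₁ c₃ c₄ β δ d₁ d₂ d₃ d₄ hs hc i₁ i₂ i₃ i₄
  simp only [BG.top]
  linarith

theorem kap_int [CompactSpace Z.M] {b : BG κ lam Z} {O c} (hb : b.OK O) (hc : Cfg.Adm c b.B b.G) :
    ∃ n : ℤ, b.kap O c = b.tD O / 2 + n := by
  obtain ⟨n, e⟩ := Idg99.kap_eq hb.B hb.G hc.ok hc.conn Z.dim hb.cl'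
  have s : ∀ {f : Z.M → ℝ}, An.Sm Z.I f → IntegrableOn f O b.G.F.μ := fun hf =>
    (Wz78.integ hf (HasCompactSupport.of_compactSpace _)).integrableOn
  refine ⟨n, e.trans ?_⟩
  rw [BG.tD, integral_div, integral_sub (s (Idg99.sm_lad hb.B hb.G Z.dim))
    (s (Idg99.sm_sgd (.of_base Z.dim hb.B hb.G)))]
  ring

theorem fz1 {b : B1 D Z} {o} {β : YC Y.M κ lam} (hb : (b.bg N o).OK (spO f b.O))
    (hF : Fz κ lam k ⟨Y, D, N⟩ f β δ) (a) : ∃ f' s, (∀ x ∈ ((b.bg N o).E a).U s,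
      x ∈ spO f b.O ↔ f' = true) ∧ Fz κ lam k ((b.bg N o).E a).X f' β δ := by
  obtain ⟨s, hs⟩ := hb.en
  refine ⟨f, s, fun x hx => ?_, hF⟩
  have := (hs a).2.1 hx
  cases f <;> simp_all [spO]

theorem rz1 (L : IxL κ lam k) {b : B1 D Z} {o c} {β : YC Y.M κ lam}
    (hb : (b.bg N o).OK (spO f b.O)) (h : (b.bg N o).Std c fun _ => β) (h0 : 0 < δ)
    (h1 : δ ≤ Cht98.dl0) (hF : Fz κ lam k ⟨Y, D, N⟩ f β δ) :
    ∃ d, (b.bg N o).Ix (spO f b.O) c k δ d := L.rz _ _ _ c _ δ hb h h0 h1 (fz1 hb hF)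

theorem exists_dl {p : ℝ → Prop} (h : ∀ᶠ δ in 𝓝[>] (0 : ℝ), p δ) :
    ∃ δ₀ > 0, δ₀ ≤ Cht98.dl0 ∧ ∀ δ ∈ Ioo 0 δ₀, p δ :=
  let ⟨δ₁, h1, h⟩ := (nhdsGT_basis (0 : ℝ)).eventually_iff.1 h
  ⟨min δ₁ Cht98.dl0, lt_min h1 Cht98.dl0_pos, min_le_right _ _, fun _ k =>
    h ⟨k.1, k.2.trans_le (min_le_left _ _)⟩⟩

section pair
variable {b₃ : B1 D Z₃} {b₄ : B1 D Z₄} (hC : Clo ⟨Y, D, N⟩ (b₃.bg N true) (b₄.bg N false))
include hC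

theorem clo_ok (f : Bool) : (b₃.bg N true).OK (spO f b₃.O) ∧ (b₄.bg N false).OK (spO f b₄.O) := by
  obtain ⟨_, _, _, g, -, -, -, h, -⟩ := hC 0
  exact ⟨(h f).o₃, (h f).o₄⟩

variable (L : IxL κ lam k) {c₃ : C0 Z₃ κ lam} {c₄ : C0 Z₄ κ lam} {β : YC Y.M κ lam}
  (h₃ : (b₃.bg N true).Std c₃ fun _ => β) (h₄ : (b₄.bg N false).Std c₄ fun _ => β)
include L h₃ h₄

theorem clo_glue : ∃ (Z₁ : Mf 4) (_ : CompactSpace Z₁.M) (b₁ : BG κ lam Z₁)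
    (g : GC ⟨Y, D, N⟩ b₁ (b₃.bg N true) (b₄.bg N false)) (c₁ : C0 Z₁ κ lam), IsEmpty b₁.A ∧
    (∀ f, g.Sp (spO f b₁.O) (spO f b₃.O) (spO f b₄.O) f) ∧ g.Cf c₁ c₃ c₄ β := by
  obtain ⟨s, hs⟩ := glue (X := ⟨Y, D, N⟩) L.glc β h₃.1 h₄.1
  obtain ⟨Z₁, _, b₁, g, h0, h1, h2, h, hc⟩ := hC s
  obtain ⟨c₁, e⟩ := hs Z₁ b₁ g h1 h2 (h false) hc (sd_K g.e₃ (h₃.2 ())) (sd_K g.e₄ (h₄.2 ()))
  exact ⟨Z₁, ‹_›, b₁, g, c₁, h0, h, e⟩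

theorem pair {d₂ d₃ d₄} (h0 : 0 < δ) (h1 : δ ≤ Cht98.dl0)
    (i₂ : (XD.mk Y D N).bg.Ix (spO f univ) (cy β) k δ d₂)
    (i₃ : (b₃.bg N true).Ix (spO f b₃.O) c₃ k δ d₃) (i₄ : (b₄.bg N false).Ix (spO f b₄.O) c₄ k δ d₄) :
    d₃ - (b₃.bg N true).top (spO f b₃.O) c₃ + (d₄ - (b₄.bg N false).top (spO f b₄.O) c₄) = d₂ := by
  obtain ⟨Z₁, _, b₁, g, c₁, h, hs, hc⟩ := clo_glue hC L h₃ h₄
  obtain ⟨d, e, i₁⟩ := L.clo Z₁ b₁ _ c₁ h (hs f).o₁ hc.a₁ δ h0 h1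
  have := cut L (hs f) hc h₃ h₄ i₁ i₂ i₃ i₄
  linarith

theorem pair_lv : ∃ n : ℤ, (b₃.bg N true).kap b₃.O c₃ + (b₄.bg N false).kap b₄.O c₄ =
    ((b₃.bg N true).tD b₃.O + (b₄.bg N false).tD b₄.O) / 2 + n := by
  obtain ⟨Z₁, _, b₁, g, c₁, -, hs, hc⟩ := clo_glue hC L h₃ h₄
  obtain ⟨n, e⟩ := kap_int (hs true).o₁ hc.a₁
  obtain ⟨-, h2, h3⟩ := L.top.2.1 _ _ _ _ b₁ _ _ g _ _ _ _ (hs true)
  exact ⟨n, (h3 c₁ c₃ c₄ β _ _ hc h₃ h₄).2.symm.trans (e.trans (by rw [h2]; rfl))⟩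

/-- the index does not depend on the small weight -/
theorem pair_wt (hX : (XD.mk Y D N).OK) (gd : Gd N D β) (hf : f = true ∨ D.Zr β) :
    ∃ d, ∀ᶠ δ in 𝓝[>] (0 : ℝ), (b₄.bg N false).Ix (spO f b₄.O) c₄ k δ d := by
  obtain ⟨δ₀, p0, p1, h⟩ := exists_dl (L.inv _ hX f β gd hf)
  obtain ⟨o₃, o₄⟩ := clo_ok hC f
  have le : ∀ δ ∈ Ioo 0 δ₀, δ ≤ Cht98.dl0 := fun δ k => k.2.le.trans p1
  choose! d₃ i₃ using fun δ k => rz1 L o₃ h₃ k.1 (le δ k) (h δ k).1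
  choose! d₄ i₄ using fun δ k => rz1 L o₄ h₄ k.1 (le δ k) (h δ k).1
  have e := fun δ k => pair hC L h₃ h₄ k.1 (le δ k) (h δ k).2 (i₃ δ k) (i₄ δ k)
  have c : ContinuousOn d₄ (Ioo 0 δ₀) := fun δ hδ => (EventuallyEq.continuousAt (y := d₄ δ) <| by
    filter_upwards [isOpen_Ioo.mem_nhds hδ,
      L.mon _ _ _ c₃ _ δ₀ o₃ h₃ p1 (fun δ k => fz1 o₃ (h δ k).1) δ hδ,
      L.mon _ _ _ c₄ _ δ₀ o₄ h₄ p1 (fun δ k => fz1 o₄ (h δ k).1) δ hδ] with δ' k m₃ m₄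
    have m₃ := m₃ _ _ (i₃ δ hδ) (i₃ δ' k)
    have m₄ := m₄ _ _ (i₄ δ hδ) (i₄ δ' k)
    have : d₃ δ' + d₄ δ' = d₃ δ + d₄ δ := by
      have : (d₃ δ' + d₄ δ' : ℝ) = d₃ δ + d₄ δ := by linarith [e δ hδ, e δ' k]
      exact_mod_cast this
    rcases le_total δ δ' with l | l
    · linarith [m₃.1 l, m₄.1 l]
    · linarith [m₃.2 l, m₄.2 l]).continuousWithinAt
  have m : δ₀ / 2 ∈ Ioo 0 δ₀ := ⟨half_pos p0, half_lt_self p0⟩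
  exact ⟨d₄ (δ₀ / 2), mem_of_superset (Ioo_mem_nhdsGT p0) fun δ k =>
    isPreconnected_Ioo.constant c k m ▸ i₄ δ k⟩

/-- the defect of the index is the same for all standard configurations -/
theorem pair_loc {c d d'} (h : (b₄.bg N false).Std c fun _ => β) (h0 : 0 < δ) (h1 : δ ≤ Cht98.dl0)
    (hF : Fz κ lam k ⟨Y, D, N⟩ f β δ ∧ (XD.mk Y D N).bg.Ix (spO f univ) (cy β) k δ (nz D f β))
    (i₄ : (b₄.bg N false).Ix (spO f b₄.O) c₄ k δ d) (i : (b₄.bg N false).Ix (spO f b₄.O) c k δ d') :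
    d - (b₄.bg N false).top (spO f b₄.O) c₄ = d' - (b₄.bg N false).top (spO f b₄.O) c := by
  obtain ⟨d₃, i₃⟩ := rz1 L (clo_ok hC f).1 h₃ h0 h1 hF.1
  linarith [pair hC L h₃ h₄ h0 h1 hF.2 i₃ i₄, pair hC L h₃ h h0 h1 hF.2 i₃ i]

end pair

theorem zB_ok {N' : Bool → ND Y.M lam} {O} (h : (XD.mk Y D N).bg.OK O)
    (hX : ∀ o, (XD.mk Y D (N' o)).OK) : (zB D N').OK O :=
  ⟨hX, h.B, h.G, h.cl, h.cl', h.sub, h.en, h.cpt, fun δ h0 h1 =>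
    let ⟨g, k⟩ := h.gr δ h0 h1
    ⟨{ g with }, k⟩⟩

/-- an incoming end absorbs a path -/
theorem absorb (L : IxL κ lam k) {N : Bool → ND Y.M lam} (hX : ∀ o, (XD.mk Y D (N o)).OK)
    {R : B1 D Z} (hR : ∀ o f, (R.bg (N o) false).OK (spO f R.O)) {c c₄} {β β' : YC Y.M κ lam}
    (hc : (zB D N).Std c fun o => bif o then β' else β)
    (h₄ : (R.bg (N true) false).Std c₄ fun _ => β') :
    ∃ (g : GC ⟨Y, D, N true⟩ (R.bg (N false) false) (zB D N) (R.bg (N true) false))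
      (c₁ : C0 Z κ lam), (∀ f, g.Sp (spO f R.O) (spO f univ) (spO f R.O) f) ∧ g.Cf c₁ c c₄ β' ∧
      (R.bg (N false) false).Std c₁ fun _ => β := by
  obtain ⟨s, hs⟩ := glue (X := ⟨Y, D, N true⟩) L.glc β' hc.1 h₄.1
  obtain ⟨hz, h⟩ := L.cyl _ (hX true)
  obtain ⟨q, ha, -, h1, h2, -, -, hm, -, hp⟩ :=
    h Z (R.bg (N true) false) () R.K (hR _ false) rfl s
  let g : GC ⟨Y, D, N true⟩ (R.bg (N false) false) (zB D N) (R.bg (N true) false) :=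
    ⟨{ q.p₃ with }, { q.p₄ with }, q.a₃, q.a₄, q.K₃, q.K₄, q.s₃, q.s₄, q.f,
      by rw [ha, ← K_eq q.e₃], q.e₄, q.J₃, q.J₄, q.cov, q.t₃, q.t₄, q.band, q.jj, fun a => by
        rcases q.f a with ⟨a', h'⟩ | ⟨a', h'⟩
        · obtain rfl : a' = false := by simpa [ha] using h'
          exact ⟨⟨Y, D, N false⟩, R.K, D.nk, false, rfl, rfl, hm⟩
        · exact (h' rfl).elim⟩
  have hg : ∀ f, g.Sp (spO f R.O) (spO f univ) (spO f R.O) f := fun f =>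
    have k := hp f (hR _ f)
    ⟨hR _ f, zB_ok (hz f) hX, hR _ f, k.p₃, k.p₄, k.f₃, k.f₄⟩
  obtain ⟨c₁, e⟩ := hs Z _ g h1 h2 (hg false) ⟨c₄, h₄.1⟩
    (sd_K q.e₃ (hc.2 true)) (sd_K q.e₄ (h₄.2 ()))
  obtain ⟨u, ζ, _, _, _, _, _, _, hu, -⟩ := e.ex
  obtain ⟨t, ht⟩ := (hR false false).en
  obtain ⟨t', ht'⟩ := (hg false).o₃.en
  exact ⟨g, c₁, hg, e, e.a₁, fun _ => (L.std.1 _ _ _ _ g.p₃ ⟨Y, D, N false⟩ _ _ false c₁ c u ζ β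
    (hX _) (hR _ false) (hg false).o₃ hm ⟨max t t', (ht_mono (le_max_left _ _)).trans (ht ()).1,
      (ht_mono (le_max_right _ _)).trans (ht' false).1⟩ e.a₁ hc.1 hu).2 (hc.2 false)⟩

theorem top_cyl (L : IxL κ lam k) (hX : X.OK) (c) :
    X.bg.top (spO f univ) c = (bif f then 6 else 8) * c.kap X.D.B X.D.G := by
  obtain ⟨h1, h2, -⟩ := L.top.2.2 X hX
  have : X.bg.kap univ c = c.kap X.D.B X.D.G := setIntegral_univ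
  cases f
  · simp [BG.top, h1, spO, this, BG.tD, show X.bg.kap ∅ c = 0 from setIntegral_empty]
  · simp only [BG.top, h1, spO, cond_true, h2, this]; ring

theorem Gd.adm {β} (h : Gd N D β) : D.Adm β := ⟨h.crit.sol.toAdm, h.crit.tmp⟩

theorem std_b {H : Hd D} {β} (h : H.OK ∧ D.Adm β) (N) :
    (H.R.bg N false).Std (H.b β h) fun _ => β := (h.1.exR _ h.2).choose_spec N

/-- the gradings exist -/
theorem wt {H : Hd D} (L : IxL κ lam H.k) (hH : H.OK) (hX : (XD.mk Y D N).OK) {β} (gd : Gd N D β)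
    (hf : f = true ∨ D.Zr β) : ∃ d, H.Ix N f β d :=
  let ⟨_, hl⟩ := hH.exL N β (Gd.adm gd)
  (pair_wt (hH.clo N hX.nd) L hl (std_b ⟨hH, Gd.adm gd⟩ N) hX gd hf).imp fun _ h => ⟨_, h⟩

theorem wt' {H : Hd D} (L : IxL κ lam H.k) (hH : H.OK) (hX : (XD.mk Y D N).OK) {β} (gd : Gd N D β)
    (hf : f = true ∨ D.Zr β) : ∀ᶠ δ in 𝓝[>] (0 : ℝ), (Fz κ lam H.k ⟨Y, D, N⟩ f β δ ∧
      (XD.mk Y D N).bg.Ix (spO f univ) (cy β) H.k δ (nz D f β)) ∧ (H.R.bg N false).Ix (spO f H.R.O)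
      (H.b β ⟨hH, Gd.adm gd⟩) H.k δ (Classical.epsilon (H.Ix N f β)) :=
  (L.inv _ hX f _ gd hf).and (Classical.epsilon_spec (wt L hH hX gd hf)).2

theorem mix (L : IxL κ lam k) : MixStmt κ lam k := by
  rintro Y _ D H N f β hH rfl hX hf
  have hA := Gd.adm (hX true).2
  have hC := fun o => hH.clo _ (hX o).1.nd
  have hz : (zB D N).Std (cy β) fun o => bif o then β else β := ⟨hA.adm, fun o => by
    simp only [Bool.cond_self]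
    exact ⟨_, 1, 0, hA, fun _ _ => by simp [YD.nk, Jv], Eqv71.ceq_refl (c := cy β) (hX o).1.ok.B
      (hX o).1.ok.G hA.adm (isOpen_univ.prod (isOpen_lt continuous_const (by fun_prop)))⟩⟩
  obtain ⟨g, c₁, hs, hg, h₁⟩ := absorb L (fun o => (hX o).1) (fun o f => (clo_ok (hC o) f).2) hz
    (std_b ⟨hH, hA⟩ _)
  obtain ⟨l, hl⟩ := hH.exL (N false) β hA
  obtain ⟨δ₀, p0, p1, h⟩ := exists_dl ((wt' L hH (hX false).1 (hX false).2 hf).and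
    (wt' L hH (hX true).1 (hX true).2 hf))
  filter_upwards [Ioo_mem_nhdsGT p0] with δ hδ d i₃
  obtain ⟨⟨a, b⟩, a', b'⟩ := h δ hδ
  have h1 := hδ.2.le.trans p1
  obtain ⟨d₁, i₁⟩ := rz1 L (hs f).o₁ h₁ hδ.1 h1 a.1
  have e1 := cut L (hs f) hg hz (std_b _ _) i₁ a'.2 i₃ b'
  have e2 := pair_loc (hC false) L hl h₁ (std_b _ _) hδ.1 h1 a i₁ b
  have e3 : (zB D N).top (spO f univ) (cy β) = 0 := (top_cyl L (hX true).1 _).trans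
    (mul_eq_zero_of_right _ (setIntegral_univ.symm.trans ((L.top.2.2 _ (hX true).1).2.2 β hA)))
  have e4 : (H.R.bg (N true) false).top (spO f H.R.O) (H.b β ⟨hH, hA⟩) =
    (H.R.bg (N false) false).top (spO f H.R.O) (H.b β ⟨hH, hA⟩) := rfl
  have : (d : ℝ) = Classical.epsilon (H.Ix (N false) f β) - Classical.epsilon (H.Ix (N true) f β) +
    nz D f β := by linarith
  exact_mod_cast this

theorem aps : ApsStmt D := by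
  intro H N S L hH hX
  have gd : ∀ i, Gd N D (S.β i) := fun i => ⟨S.crit i, S.nd i, S.irr i⟩
  have hA := fun i => Gd.adm (gd i)
  have hC := hH.clo N hX.nd
  have hR := fun f => (clo_ok hC f).2
  set r := fun i => H.b (S.β i) ⟨hH, hA i⟩
  have hr : ∀ i, (H.R.bg N false).Std (r i) fun _ => S.β i := fun i => std_b _ N
  have ab := fun {c c₄ β β'} => absorb (N := fun _ => N) (c := c) (c₄ := c₄) (β := β) (β' := β') L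
    (fun _ => hX) fun _ => hR
  have hk : ∀ i, (H.gr S).k i = -(H.R.bg N false).kap H.R.O (r i) := fun i => dif_pos ⟨hH, hA i⟩
  refine ⟨⟨fun Z b c i hb hc => ?_, fun c i j hc => ?_⟩, ?_⟩
  · obtain ⟨n, e⟩ := pair_lv hb L hc (hr i)
    exact ⟨n, by rw [hk]; linarith⟩
  · obtain ⟨g, c₁, hs, hg, h₁⟩ := ab hc (hr j)
    obtain ⟨l, hl⟩ := hH.exL N _ (hA i)
    obtain ⟨n, e⟩ := pair_lv hC L hl h₁
    obtain ⟨m, e'⟩ := pair_lv hC L hl (hr i)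
    have e1 := ((L.top.2.1 _ _ _ _ _ _ _ g _ _ _ _ (hs true)).2.2 _ _ _ _ _ _ hg hc (hr j)).1
    have e2 : (XD.mk Y D N).bg.kap univ c = c.kap D.B D.G := setIntegral_univ
    exact ⟨n - m, by rw [hk, hk]; push_cast; linarith⟩
  set ε := fun f i => Classical.epsilon (H.Ix N f (S.β i))
  have he : ∀ f i, H.ep S f i =
      nz D f (S.β i) - (ε f i - (H.R.bg N false).top (spO f H.R.O) (r i)) := fun f i => by
    cases f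
    · simp only [Hd.ep, Hd.τ, Gr.ηA, hk, BG.top, spO, cond_false, nz,
        show (H.R.bg N false).kap ∅ (r i) = 0 from setIntegral_empty]
      simp [Hd.gr, Hd.d, ε]; ring
    · simp only [Hd.ep, Hd.τ, Gr.η, hk, BG.top, spO, cond_true]
      simp [Hd.gr, Hd.g, ε]; ring
  obtain ⟨δ₀, p0, p1, ev⟩ := exists_dl (eventually_all.2 fun f => eventually_all.2 fun i =>
    eventually_imp_distrib_left.2 (wt' (f := f) L hH hX (gd i)))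
  refine ⟨δ₀, p0, p1, fun δ h0 hδ => ?_⟩
  have ev := ev δ ⟨h0, hδ⟩
  have h2 := hδ.le.trans p1
  have left : ∀ (Z : Mf 4) (b : B1 D Z) f c i d, Clo ⟨Y, D, N⟩ (b.bg N true) (H.R.bg N false) →
      (b.bg N true).Std c (fun _ => S.β i) → f = true ∨ D.Zr (S.β i) →
      (b.bg N true).Ix (spO f b.O) c H.k δ d → d = (b.bg N true).top (spO f b.O) c + H.ep S f i :=
    fun Z b f c i d hb hc h i₃ => by
      have := pair hb L hc (hr i) h0 h2 (ev f i h).1.2 i₃ (ev f i h).2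
      rw [he]; linarith
  refine ⟨fun f i h => (ev f i h).1, left, fun Z₃ Z₄ b₃ b₄ O₄ f c₃ c₄ β₄ i d E hb h₃ h₄ h hs i₄ => ?_,
    fun f c i j d hc h i₃ => ?_⟩
  · obtain ⟨s, hg⟩ := glue (X := ⟨Y, D, N⟩) L.glc (S.β i) h₃.1 h₄.1
    obtain ⟨Z₁, b₁, g, O₁, k1, k2, k3, k4, k5, k6, k7⟩ := hs s
    obtain ⟨c₁, e⟩ := hg Z₁ b₁ g k1 k2 k4 k6 (sd_K g.e₃ (h₃.2 ())) k5
    obtain ⟨d₁, i₁, e₁⟩ := k7 c₁ e
    obtain ⟨d₃, i₃⟩ := rz1 L k3.o₃ h₃ h0 h2 (ev f i h).1.1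
    have := cut L k3 e h₃ h₄ i₁ (ev f i h).1.2 i₃ i₄
    have := left _ b₃ f c₃ i d₃ hb h₃ h i₃
    linarith
  · have hi := ev f i (h.imp_right And.left)
    have hj := ev f j (h.imp_right And.right)
    obtain ⟨g, c₁, hs, hg, h₁⟩ := ab hc (hr j)
    obtain ⟨d₁, i₁⟩ := rz1 L (hR f) h₁ h0 h2 hi.1.1
    obtain ⟨l, hl⟩ := hH.exL N _ (hA i)
    have e1 := cut L (hs f) hg hc (hr j) i₁ hj.1.2 i₃ hj.2
    have e2 := pair_loc hC L hl h₁ (hr i) h0 h2 hi.1 i₁ hi.2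
    have e4 := top_cyl (f := f) L hX c
    rw [he, he]
    linarith

end Crest.Agent.X212.Aps75
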